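import Vale.Agent.P272.F.A.Main
import Vale.Agent.P272.F.H.Main

/-! P272 F/A/Fin (helper70): the canonical bundle of a compact hyperbolic Kaehler manifold is ample. -/

namespace Vale.Agent.P272

variable {n : ℕ} {X : Type} [TopologicalSpace X] {A : Atl n X}

theorem ample [T2Space X] [CompactSpace X] (hn : 1 ≤ n) [ConnectedSpace X] (hA : A.Hyp)
    (ρ : A.Pot) (hρ : ρ.Pos) (v : A.LV) : A.Ample :=
  ample_of hn hρ (v := v) fun _ _ _ he hh h => vsl hn hA ρ hρ v he hh h

theorem ample_zero [ConnectedSpace X] (A : Atl 0 X) : A.Ample := by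
  have ho : ∀ p : X, IsOpen ({p} : Set X) := by
    intro p
    obtain ⟨j, hj, -⟩ := A.cov p
    have h1 : (A.e j).source = {p} := by
      ext q
      constructor
      · intro hq
        exact (A.e j).injOn hq hj (Subsingleton.elim _ _)
      · rintro rfl
        exact hj
    rw [← h1]
    exact (A.e j).open_source
  have : DiscreteTopology X := discreteTopology_iff_isOpen_singleton.2 ho
  have : Subsingleton X := PreconnectedSpace.trivial_of_discrete
  refine ⟨1, 0, fun _ => ⟨fun _ _ => 1, fun j => differentiableOn_const _, fun j k x _ _ => ?_⟩,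
    le_rfl, fun j p _ => ⟨0, one_ne_zero⟩, fun _ _ p q _ _ _ _ => Subsingleton.elim p q,
    fun _ _ a _ _ _ => Subsingleton.elim _ _⟩
  have h2 : (A.tr j k x).det = 1 := LinearMap.det_eq_one_of_subsingleton _
  rw [h2, one_pow, mul_one]

theorem ample_all [T2Space X] [CompactSpace X] [ConnectedSpace X] (A : Atl n X) (hA : A.Hyp)
    (ρ : A.Pot) (hρ : ρ.Pos) (v : A.LV) : A.Ample := by
  rcases Nat.eq_zero_or_pos n with rfl | hn
  · exact ample_zero A
  · exact ample hn hA ρ hρ v

end Vale.Agent.P272
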