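import Vale.Agent.P272.F.Kit.Main

/-! P272 F/A/Asm (helper70): the assembly, with the blocks as hypotheses. -/

open Metric Set Filter Topology Complex
open scoped ContDiff

noncomputable section

namespace Vale.Agent.P272.Asm

variable {n : ℕ} {X : Type} [TopologicalSpace X] {A : Atl n X}

/-- Envelope and regularisation. -/
def PR (A : Atl n X) : Prop := ∀ (θ ρ : A.Pot), ρ.Pos → ∀ (F : A.Rhs) (B m t : ℝ),
  (∃ φ, Atl.Sup θ.u F.F φ) → (∀ φ, Atl.Sup θ.u F.F φ → (∀ x, -B ≤ φ x) ∧ ∃ x, m ≤ φ x) → 0 < t →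
    ∃ ψ, Atl.Sub θ.u F.F ρ t ψ ∧ (∀ x, -B - t ≤ ψ x) ∧ ∃ x, m - t ≤ ψ x

/-- The volume estimate. -/
def VS (ρ : A.Pot) (v : A.LV) : Prop := ∀ ε η B : ℝ, 0 ≤ ε → 0 ≤ η →
  (∀ β, 0 < β → ∃ ψ b, Atl.Bar ρ v ε η B β ψ b) →
    ∃ B' : ℝ, ∀ φ, Atl.Sup (fun j y => v.l j y - ε * η / (2 + η) * ρ.u j y) (Atl.maF v 0) φ →
      ∀ x, -B' ≤ φ x

/-- The barrier. -/
def BA (ρ : A.Pot) (v : A.LV) : Prop := ∀ τ : A.Pot, ∃ η B : ℝ, 0 < η ∧ ∀ ψ, A.Sm ψ →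
  (∀ x, ψ x ≤ 0) → (∃ x, ψ x = 0) →
  (∀ j x a, x ∈ (A.e j).source → 0 ≤ levi (fun y => τ.u j y + A.loc ψ j y) (A.e j x) a) →
  ∃ b, A.Sm b ∧ (∀ x, |b x| ≤ B) ∧ ∀ j x V, x ∈ (A.e j).source →
    maR (-B - η * ψ x + v.l j (A.e j x)) V ≤ trL (fun y => 2 * ρ.u j y + A.loc b j y) (A.e j x) V

/-- No smooth representative is nowhere above `ε ρ`. -/
def Big (θ ρ : A.Pot) (ε : ℝ) : Prop := ∀ u, A.Sm u → ∃ j x, x ∈ (A.e j).source ∧ ∀ a,
  ε * levi (ρ.u j) (A.e j x) a ≤ levi (fun y => θ.u j y + A.loc u j y) (A.e j x) a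

theorem in4 {j : Fin A.N} {x : X} (h : A.In j 1 x) : ‖A.e j x‖ ≤ 4 := h.2.trans (by norm_num)

theorem sm0 : A.Sm 0 := Atl.sm_const 0

theorem maF_eq (v : A.LV) (j : Fin A.N) (y : E n) (r : ℝ) (V : L n) :
    Atl.maF v 0 j y r V = maR (r + v.l j y) V := by
  rw [Atl.maF, show A.loc 0 j y = 0 from rfl, add_zero]

theorem sup_const (θ : A.Pot) (F : A.Rhs) {M : ℝ}
    (h : ∀ j y, ‖y‖ ≤ 4 → trL (θ.u j) y 1 < F.F j y M 1) : ∃ φ, Atl.Sup θ.u F.F φ :=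
  ⟨fun _ => M, Atl.sup_of_ch θ F (Atl.sm_const M) fun x => ⟨A.ch x, 1, (Atl.ch_in x).1,
    (trL_add_const _ M _ _).trans_lt (h _ _ (in4 (Atl.in_ch x le_rfl)))⟩⟩

theorem sup_ma (hn : 1 ≤ n) (θ : A.Pot) (v : A.LV) :
    ∃ φ, Atl.Sup θ.u (Atl.maRhs hn v sm0).F φ := by
  obtain ⟨C, -, hC⟩ := Atl.fam_bound θ.sm
  obtain ⟨D, -, hD⟩ := Atl.fam_bound v.sm
  have h0 : (0 : ℝ) < n := by exact_mod_cast hn
  refine sup_const θ _ (M := n * C + D) fun j y hy => ?_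
  have h1 := trL_up (fun a => (le_abs_self _).trans ((hC j y hy).2.2.2 a)) (1 : L n)
  have h2 := (abs_le.1 (hD j y hy).1).1
  have h3 : C ≤ (n * C + D + v.l j y) / n := by
    rw [le_div_iff₀ h0]
    linarith
  have h4 := Real.add_one_le_exp ((n * C + D + v.l j y) / n)
  have h5 : n * C < n * Real.exp ((n * C + D + v.l j y) / n) :=
    mul_lt_mul_of_pos_left (by linarith) h0
  rw [hs_one] at h1
  change _ < Atl.maF v 0 j y _ _
  rw [maF_eq, maR_one]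
  linarith

theorem sub_ma [Nonempty X] (hn : 1 ≤ n) (hP : PR A) (θ : A.Pot) {ρ : A.Pot} (hρ : ρ.Pos)
    (v : A.LV) {B : ℝ} (h : ∀ φ, Atl.Sup θ.u (Atl.maF v 0) φ → ∀ x, -B ≤ φ x) {t : ℝ}
    (ht : 0 < t) : ∃ ψ, Atl.Sub θ.u (fun j y _ V => maR (-(B + 1) + v.l j y) V) ρ t ψ := by
  obtain ⟨ψ, h1, h2, -⟩ := hP θ ρ hρ (Atl.maRhs hn v sm0) B (-B) (min t 1) (sup_ma hn θ v)
    (fun φ hφ => ⟨h φ hφ, Classical.arbitrary X, h φ hφ _⟩) (lt_min ht one_pos)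
  refine ⟨ψ, h1.1, fun j x V hx => ?_⟩
  have h3 : Atl.maF v 0 j _ _ V ≤ _ := h1.2 j x V hx
  rw [maF_eq] at h3
  have h4 : maR (-(B + 1) + v.l j (A.e j x)) V ≤ maR (ψ x + v.l j (A.e j x)) V :=
    maR_mono (by linarith [h2 x, min_le_right t 1]) V
  have h5 := mul_le_mul_of_nonneg_right (min_le_left t 1)
    (hρ.trL_nonneg ((A.e j).map_source hx) V)
  linarith

theorem bar0 (hn : 1 ≤ n) {ρ : A.Pot} (hρ : ρ.Pos) (v : A.LV) :
    ∃ B, ∀ β, 0 < β → ∃ ψ b, Atl.Bar ρ v 0 0 B β ψ b := by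
  obtain ⟨C, hC1, hC⟩ := v.toPot.le_pos hρ
  obtain ⟨D, -, hD⟩ := Atl.fam_bound v.sm
  obtain ⟨c, hc, hc'⟩ := hρ.lo
  have h0 : (0 : ℝ) < n := by exact_mod_cast hn
  obtain ⟨B, hB, hB'⟩ : ∃ B, C ≤ B ∧ D - n * Real.log c ≤ B := ⟨_, le_max_left _ _, le_max_right _ _⟩
  refine ⟨B, fun β _ => ⟨fun _ => 0, fun _ => 0, sm0, sm0, fun _ => le_rfl,
    fun _ _ _ _ => Or.inr rfl, fun j x a hx => ?_, fun _ => by rw [abs_zero]; linarith,
    fun j x V hx => ?_⟩⟩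
  · have h1 := (abs_le.1 (hC j x a hx)).1
    have h2 := mul_le_mul_of_nonneg_right hB (hρ.nonneg ((A.e j).map_source hx) a)
    refine le_trans ?_ (levi_add_const (v.l j) 0 _ a).ge
    change -(C * _) ≤ levi (v.l j) _ _ at h1
    linarith
  · have h1 := Atl.le_of_ch (ρ.cmul 2) (Atl.maRhs hn v sm0) (fun _ => -B) (fun j x V hx => ?_)
      j x V hx
    · change Atl.maF v 0 j _ _ V ≤ _ at h1
      rw [maF_eq] at h1
      rw [zero_mul, sub_zero]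
      exact h1.trans (trL_add_const (fun y => 2 * ρ.u j y) 0 _ V).ge
    · change Atl.maF v 0 j _ _ V ≤ trL (fun y => 2 * ρ.u j y) _ V
      rw [maF_eq, trL_cmul]
      have h2 := trL_lo (fun a => hc' j _ a (in4 hx)) V
      have h3 : (-B + v.l j (A.e j x)) / n ≤ Real.log c := by
        rw [div_le_iff₀ h0]
        linarith [(abs_le.1 (hD j _ (in4 hx)).1).2]
      have h4 := mul_le_mul_of_nonneg_right ((Real.le_log_iff_exp_le hc).1 h3) (pv_hs_nonneg V)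
      have h5 := maR_le hn (-B + v.l j (A.e j x)) V
      have h6 := mul_nonneg hc.le (pv_hs_nonneg V)
      linarith

theorem sup_lo [CompactSpace X] [Nonempty X] {θ ρ : A.Pot} (hρ : ρ.Pos) {ε β C : ℝ} (hβ : 0 < β)
    (hC : ∀ j x a, x ∈ (A.e j).source →
      |levi (θ.u j) (A.e j x) a| ≤ C * levi (ρ.u j) (A.e j x) a) (hb : Big θ ρ ε) {φ : X → ℝ}
    (h : Atl.Sup θ.u (Atl.linRhs hρ ε hβ.le).F φ) :
    (∀ x, -((C + ε) / β) ≤ φ x) ∧ ∃ x, 0 ≤ φ x := by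
  constructor
  · obtain ⟨x, -, hx⟩ := isCompact_univ.exists_isMinOn univ_nonempty (pv_cont h.1).continuousOn
    have hj := (Atl.ch_in (A := A) x).1
    obtain ⟨V, hV⟩ := h.2 _ x hj
    change _ < (ε + β * φ x) * _ at hV
    rw [pv_trL_add (θ.at2 hj) (h.1.at2 hj)] at hV
    have h1 := trL_lo (c := 0) (fun a => by
      rw [zero_mul]
      exact levi_min (h.1.at2 hj) (Atl.Sm.isLocalMin hj fun x' => hx (mem_univ x')) a) V
    have h2 := trL_le (c := -C) (fun a => by linarith [(abs_le.1 (hC _ x a hj)).1]) V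
      (u := ρ.u (A.ch x)) (v := θ.u (A.ch x)) (y := A.e _ x) (y' := A.e _ x)
    have h3 := hρ.trL_nonneg ((A.e _).map_source hj) V
    have h4 : -C < ε + β * φ x := lt_of_mul_lt_mul_right (by linarith) h3
    intro x'
    refine le_trans ?_ (hx (mem_univ x'))
    rw [neg_le, le_div_iff₀ hβ]
    linarith
  · obtain ⟨j, x, hx, h1⟩ := hb φ h.1
    obtain ⟨V, hV⟩ := h.2 j x hx
    change _ < (ε + β * φ x) * _ at hV
    have h2 : ε < ε + β * φ x := lt_of_mul_lt_mul_right ((trL_le h1 V).trans_lt hV)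
      (hρ.trL_nonneg ((A.e _).map_source hx) V)
    exact ⟨x, nonneg_of_mul_nonneg_right (by linarith : 0 ≤ β * φ x) hβ⟩

theorem exists_psi [CompactSpace X] [Nonempty X] (hn : 1 ≤ n) (hP : PR A) {θ ρ : A.Pot}
    (hρ : ρ.Pos) {ε β C : ℝ} (hε : 0 < ε) (hβ : 0 < β)
    (hC : ∀ j x a, x ∈ (A.e j).source →
      |levi (θ.u j) (A.e j x) a| ≤ C * levi (ρ.u j) (A.e j x) a) (hb : Big θ ρ ε) :
    ∃ ψ, A.Sm ψ ∧ (∀ x, ψ x ≤ 0) ∧ (∃ x, ψ x = 0) ∧ ∀ j x a, x ∈ (A.e j).source →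
      (ε / 2 + β * ψ x) * levi (ρ.u j) (A.e j x) a ≤
        levi (fun y => θ.u j y + A.loc ψ j y) (A.e j x) a ∧
      -(C + ε) * levi (ρ.u j) (A.e j x) a ≤ levi (fun y => θ.u j y + A.loc ψ j y) (A.e j x) a := by
  obtain ⟨D, hD1, hD⟩ := Atl.fam_bound θ.sm
  obtain ⟨c, hc, hc'⟩ := hρ.lo
  have h0 : (0 : ℝ) < n := by exact_mod_cast hn
  have ht : 0 < ε / 2 / (1 + β) := by positivity
  have ht' : ε / 2 / (1 + β) * (1 + β) = ε / 2 := div_mul_cancel₀ _ (by positivity)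
  obtain ⟨ψ, h1, h2, x₁, h3⟩ := hP θ ρ hρ (Atl.linRhs hρ ε hβ.le) ((C + ε) / β) 0 _
    (sup_const θ _ (M := D / (β * c)) fun j y hy => by
      have h4 := trL_up (fun a => (le_abs_self _).trans ((hD j y hy).2.2.2 a)) (1 : L n)
      have h5 := trL_lo (fun a => hc' j y a hy) (1 : L n)
      rw [hs_one] at h4 h5
      have h6 : (ε + β * (D / (β * c))) * (c * n) = ε * (c * n) + D * n := by field_simp
      have h7 := mul_le_mul_of_nonneg_left h5 (by positivity : 0 ≤ ε + β * (D / (β * c)))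
      have h8 : 0 < ε * (c * n) := by positivity
      change _ < (ε + β * (D / (β * c))) * _
      linarith) (fun φ hφ => sup_lo hρ hβ hC hb hφ) ht
  generalize ε / 2 / (1 + β) = t at *
  obtain ⟨x₀, -, hx₀⟩ := isCompact_univ.exists_isMaxOn univ_nonempty (pv_cont h1.1).continuousOn
  refine ⟨fun x => ψ x - ψ x₀, h1.1.sub (Atl.sm_const _),
    fun x => sub_nonpos.2 (hx₀ (mem_univ x)), ⟨x₀, sub_self _⟩, fun j x a hx => ?_⟩
  obtain ⟨V, -, hV⟩ := pv_rank hn a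
  have h4 : (ε + β * ψ x) * trL _ _ V ≤ _ := h1.2 j x V hx
  rw [hV, hV] at h4
  have h5 : levi (fun y => θ.u j y + A.loc (fun x => ψ x - ψ x₀) j y) (A.e j x) a =
      levi (fun y => θ.u j y + A.loc ψ j y) (A.e j x) a := by
    rw [← levi_add_const (fun y => θ.u j y + A.loc ψ j y) (-ψ x₀)]
    exact congrArg (fun f => levi f (A.e j x) a) (funext fun y => (add_assoc _ _ _).symm)
  have h6 := hρ.nonneg ((A.e j).map_source hx) a
  have h12 : ψ x₁ ≤ ψ x₀ := hx₀ (mem_univ x₁)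
  have h7 : -t ≤ ψ x₀ := by linarith
  have h8 := mul_le_mul_of_nonneg_left h7 hβ.le
  have h9 := mul_le_mul_of_nonneg_left (h2 x) hβ.le
  rw [mul_sub, mul_neg, mul_div_cancel₀ _ hβ.ne'] at h9
  have h10 := mul_le_mul_of_nonneg_right
    (by linarith : ε / 2 + β * (ψ x - ψ x₀) ≤ ε + β * ψ x - t) h6
  have h11 := mul_le_mul_of_nonneg_right (by linarith : -(C + ε) ≤ ε + β * ψ x - t) h6
  rw [h5]
  constructor <;> linarith

theorem bar1 [CompactSpace X] [Nonempty X] (hn : 1 ≤ n) (hP : PR A) {ρ : A.Pot} (hρ : ρ.Pos)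
    {v : A.LV} (hB : BA ρ v) {ε : ℝ} (hε : 0 < ε) (hb : Big v.toPot ρ ε) :
    ∃ η B, 0 < η ∧ ∀ β, 0 < β → ∃ ψ b, Atl.Bar ρ v (ε / 2) η B β ψ b := by
  obtain ⟨C, -, hC⟩ := v.toPot.le_pos hρ
  obtain ⟨η, B, hη, h⟩ := hB (v.toPot.add (ρ.cmul (C + ε)))
  refine ⟨η, max B (C + ε), hη, fun β hβ => ?_⟩
  obtain ⟨ψ, h1, h2, h3, h4⟩ := exists_psi hn hP hρ hε hβ hC hb
  obtain ⟨b, h5, h6, h7⟩ := h ψ h1 h2 h3 fun j x a hx => by
    have h8 := (h4 j x a hx).2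
    rw [pv_levi_add (v.toPot.at2 hx) (h1.at2 hx)] at h8
    rw [pv_levi_add (Atl.Pot.at2 _ hx) (h1.at2 hx)]
    have h9 := pv_levi_add (v.toPot.at2 hx) ((ρ.cmul (C + ε)).at2 hx) a
    have h10 := levi_cmul (C + ε) (ρ.u j) (A.e j x) a
    change levi ((v.toPot.add (ρ.cmul (C + ε))).u j) _ _ = _ + levi (fun z => _ * _) _ _ at h9
    linarith
  refine ⟨ψ, b, h1, h5, h2, fun j x a hx => Or.inl (h4 j x a hx).1, fun j x a hx => ?_,
    fun x => (h6 x).trans (le_max_left _ _), fun j x V hx => le_trans (maR_mono ?_ V) (h7 j x V hx)⟩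
  · exact le_trans (mul_le_mul_of_nonneg_right (neg_le_neg (le_max_right _ _))
      (hρ.nonneg ((A.e j).map_source hx) a)) (h4 j x a hx).2
  · linarith [le_max_left B (C + ε)]

theorem positive [CompactSpace X] [Nonempty X] (hn : 1 ≤ n) (hP : PR A) {ρ : A.Pot} (hρ : ρ.Pos)
    {v : A.LV} (hB : BA ρ v) (hV : VS ρ v)
    (hN : ∀ B : ℝ, (∀ t, 0 < t → ∃ ψ,
      Atl.Sub v.toPot.u (fun j y _ V => maR (-B + v.l j y) V) ρ t ψ) →
        ∃ ε, 0 < ε ∧ Big v.toPot ρ ε) :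
    ∃ v' : A.LV, ∀ j, ∀ y ∈ (A.e j).target, ∀ a, a ≠ 0 → 0 < levi (v'.l j) y a := by
  obtain ⟨B₀, h0⟩ := bar0 hn hρ v
  obtain ⟨B₁, h1⟩ := hV 0 0 B₀ le_rfl le_rfl h0
  simp only [zero_mul, zero_div, sub_zero] at h1
  obtain ⟨ε, hε, h2⟩ := hN (B₁ + 1) fun t ht => sub_ma hn hP v.toPot hρ v h1 ht
  obtain ⟨η, B₂, hη, h3⟩ := bar1 hn hP hρ hB hε h2
  obtain ⟨B₃, h4⟩ := hV _ η B₂ (by positivity) hη.le h3
  have hc : 0 < ε / 2 * η / (2 + η) := by positivity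
  generalize ε / 2 * η / (2 + η) = c at *
  obtain ⟨ψ, h5, h6⟩ := sub_ma hn hP (v.toPot.subm c ρ) hρ v h4 (half_pos hc)
  refine ⟨v.addSm h5, fun j y hy a ha => ?_⟩
  obtain ⟨x, hx, rfl⟩ : ∃ x, x ∈ (A.e j).source ∧ A.e j x = y :=
    ⟨_, (A.e j).map_target hy, (A.e j).right_inv hy⟩
  obtain ⟨V, -, hV⟩ := pv_rank hn a
  have h7 := (maR_nonneg _ V).trans (h6 j x V hx)
  rw [hV, hV, pv_levi_add (Atl.Pot.at2 _ hx) (h5.at2 hx)] at h7
  have h8 := levi_sub (v.toPot.at2 hx) ((ρ.cmul c).at2 hx) a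
  have h9 := levi_cmul c (ρ.u j) (A.e j x) a
  change levi ((v.toPot.subm c ρ).u j) _ _ = _ - levi (fun z => _ * _) _ _ at h8
  have h10 := pv_levi_add (v.toPot.at2 hx) (h5.at2 hx) a
  change levi ((v.addSm h5).l j) _ _ = _ at h10
  have h11 := mul_pos hc (hρ j _ hy a ha)
  linarith

end Vale.Agent.P272.Asm
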