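import Vale.Agent.P272.F.A.Asm
import Vale.Agent.P272.F.P.Main
import Vale.Agent.P272.F.R.Main
import Vale.Agent.P272.F.M.Main
import Vale.Agent.P272.F.S.Main
import Vale.Agent.P272.F.K.Main

/-! P272 F/A/Main (helper70): the canonical bundle is ample, given the volume estimate. -/

noncomputable section

namespace Vale.Agent.P272

variable {n : ℕ} {X : Type} [TopologicalSpace X] [T2Space X] [CompactSpace X] {A : Atl n X}

theorem ample_of (hn : 1 ≤ n) [ConnectedSpace X] {ρ : A.Pot} (hρ : ρ.Pos) {v : A.LV}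
    (hV : Asm.VS ρ v) : A.Ample := by
  have hP : Asm.PR A := fun θ ρ hρ F B m t h1 h2 ht => by
    obtain ⟨φ, B', h3, h4, x, h5⟩ := perron hn θ F h1 h2
    obtain ⟨ψ, h6, h7⟩ := reg hn θ ρ hρ F h3 h4 ht
    exact ⟨ψ, h6, fun y => le_trans (sub_le_sub_right (h4 y).1 t) (h7 y), x,
      le_trans (sub_le_sub_right h5 t) (h7 x)⟩
  obtain ⟨v', h⟩ := Asm.positive hn hP hρ (fun τ => barrier hn τ ρ hρ v) hV
    (fun _ h => nosuper hn v.toPot ρ hρ v h)
  exact kodaira hn v' h

end Vale.Agent.P272
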